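import Vale.Agent.P110.Golay.Pairs

/-!
P110: Littlewood polynomials of every large length with maximum at most `(√2 + ε) √N`.
-/

namespace Vale.Agent.P110.Golay

open Finset Filter

/-- a sign sequence of length `n` with maximum at most `C` on the circle -/
def HasBound (n : ℕ) (C : ℝ) : Prop :=
  ∃ h, IsSign h ∧ ∀ z : ℂ, ‖z‖ = 1 → ‖poly h n z‖ ≤ C

theorem IsLength.hasBound {n : ℕ} (h : IsLength n) : HasBound n (√2 * √n) := by
  obtain ⟨a, b, ha, -, hab⟩ := h
  refine ⟨a, ha, fun z hz => ?_⟩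
  rw [← Real.sqrt_mul zero_le_two, ← hab z hz]
  exact (Real.le_sqrt (norm_nonneg _) (by positivity)).2 (le_add_of_nonneg_right (sq_nonneg _))

theorem HasBound.append {n m : ℕ} {C D : ℝ} (h₁ : HasBound n C) (h₂ : HasBound m D) :
    HasBound (n + m) (C + D) := by
  obtain ⟨a, ha, hC⟩ := h₁
  obtain ⟨b, hb, hD⟩ := h₂
  refine ⟨fun k => if k < n then a k else b (k - n), fun k => ?_, fun z hz => ?_⟩
  · show (if k < n then a k else b (k - n)) = 1 ∨ (if k < n then a k else b (k - n)) = -1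
    by_cases h : k < n
    · rw [if_pos h]; exact ha k
    · rw [if_neg h]; exact hb _
  have e : poly (fun k => if k < n then a k else b (k - n)) (n + m) z =
      poly a n z + z ^ n * poly b m z := by
    rw [poly, sum_range_add, poly, poly, mul_sum]
    congr 1
    · exact sum_congr rfl fun i hi => by rw [if_pos (mem_range.1 hi)]
    · refine sum_congr rfl fun i _ => ?_
      rw [if_neg (by omega), Nat.add_sub_cancel_left, pow_add]
      ring
  rw [e]
  refine (norm_add_le _ _).trans (add_le_add (hC z hz) ?_)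
  rw [norm_mul, norm_pow, hz, one_pow, one_mul]
  exact hD z hz

theorem hasBound_four (n : ℕ) : HasBound n (4 * √n) := by
  induction n using Nat.strong_induction_on with
  | _ n ih =>
    rcases Nat.eq_zero_or_pos n with rfl | hn
    · exact ⟨fun _ => 1, fun _ => Or.inl rfl, fun z _ => by simp [poly]⟩
    set L := 2 ^ Nat.log 2 n with hL
    have h1 : L ≤ n := Nat.pow_log_le_self 2 (by omega)
    have h2 : n < 2 * L := by rw [hL, ← pow_succ']; exact Nat.lt_pow_succ_log_self (by omega) n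
    have hLl : IsLength L := by simpa using isLength_two_pow_ten_pow (Nat.log 2 n) 0
    have h := hLl.hasBound.append (ih (n - L) (by omega))
    rw [Nat.add_sub_cancel' h1] at h
    obtain ⟨c, hc, hb⟩ := h
    refine ⟨c, hc, fun z hz => (hb z hz).trans ?_⟩
    set x := √(L : ℝ) with hx
    set y := √((n - L : ℕ) : ℝ) with hy
    have hxy : y ≤ x := Real.sqrt_le_sqrt (by exact_mod_cast (show n - L ≤ L by omega))
    have hn' : (n : ℝ) = x ^ 2 + y ^ 2 := by
      rw [hx, hy, Real.sq_sqrt (by positivity), Real.sq_sqrt (by positivity), Nat.cast_sub h1]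
      ring
    have hs : √2 ≤ 3 / 2 := by
      rw [Real.sqrt_le_iff]; norm_num
    have hy0 : 0 ≤ y := Real.sqrt_nonneg _
    have h4 : 4 * √(n : ℝ) = √(16 * (n : ℝ)) := by
      rw [Real.sqrt_mul (by norm_num), show (16 : ℝ) = 4 ^ 2 by norm_num,
        Real.sqrt_sq (by norm_num)]
    rw [h4, hn']
    refine Real.le_sqrt_of_sq_le ?_
    have hx0 : 0 ≤ x := hy0.trans hxy
    have h5 : (√2 * x + 4 * y) ^ 2 ≤ (3 / 2 * x + 4 * y) ^ 2 := by gcongr
    nlinarith [mul_le_mul_of_nonneg_left hxy hx0, mul_nonneg hx0 hy0]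

/-- multiplicative steps between `2^p` and `5^q` arbitrarily close to one -/
theorem exists_near_one {δ : ℝ} (hδ : 0 < δ) :
    ∃ p q : ℕ, 0 < p ∧ 0 < q ∧
      |(q : ℝ) * Real.log 5 - p * Real.log 2| < δ ∧ (5 : ℕ) ^ q ≠ 2 ^ p := by
  obtain ⟨n, hn⟩ := exists_nat_gt (Real.log 2 / δ)
  have hl : (0 : ℝ) < Real.log 2 := Real.log_pos one_lt_two
  have hn0 : 0 < n := by
    have : (0 : ℝ) < n := lt_trans (div_pos hl hδ) hn
    exact_mod_cast this
  obtain ⟨j, k, hk, -, hjk⟩ :=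
    Real.exists_int_int_abs_mul_sub_le (Real.log 5 / Real.log 2) hn0
  have hθ : (2 : ℝ) ≤ Real.log 5 / Real.log 2 := by
    rw [le_div_iff₀ hl]
    have e := Real.log_pow (2 : ℝ) 2
    push_cast at e
    linarith [Real.log_le_log (by norm_num : (0:ℝ) < 2 ^ 2) (by norm_num : (2:ℝ) ^ 2 ≤ 5)]
  have hk1 : (1 : ℝ) ≤ k := by exact_mod_cast hk
  have hb : (1 : ℝ) / (n + 1) ≤ 1 := by
    rw [div_le_one (by positivity)]; linarith [(n.cast_nonneg : (0 : ℝ) ≤ n)]
  have hj : (1 : ℝ) ≤ j := by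
    nlinarith [(abs_le.1 (hjk.trans hb)).2, mul_le_mul_of_nonneg_left hθ (by linarith : (0:ℝ) ≤ k)]
  have hj' : (1 : ℤ) ≤ j := by exact_mod_cast hj
  obtain ⟨p, rfl⟩ := Int.eq_ofNat_of_zero_le (by omega : 0 ≤ j)
  obtain ⟨q, rfl⟩ := Int.eq_ofNat_of_zero_le (by omega : 0 ≤ k)
  refine ⟨p, q, by omega, by omega, ?_, fun h => ?_⟩
  · have e : (q : ℝ) * Real.log 5 - p * Real.log 2 =
        Real.log 2 * ((q : ℝ) * (Real.log 5 / Real.log 2) - p) := by field_simp
    rw [e, abs_mul, abs_of_pos hl]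
    have h' : |(q : ℝ) * (Real.log 5 / Real.log 2) - p| ≤ 1 / (n + 1) := by simpa using hjk
    refine (mul_le_mul_of_nonneg_left h' hl.le).trans_lt ?_
    rw [div_lt_iff₀ hδ] at hn
    rw [mul_one_div, div_lt_iff₀ (by positivity)]
    nlinarith
  · have h2 : 2 ∣ 5 ^ q := h ▸ dvd_pow_self 2 (by omega)
    have := Nat.prime_two.dvd_of_dvd_pow h2
    omega

/-- a geometric progression with small ratio fills `[c^A, c^(A+1)]` -/
theorem exists_geometric {x r c M : ℝ} (hr : 1 < r) (hx : 0 < x) (J : ℕ) (hJ : c ≤ r ^ J)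
    (h1 : x ≤ M) (h2 : M < c * x) : ∃ j < J, x * r ^ j ≤ M ∧ M < r * (x * r ^ j) := by
  classical
  have hex : ∃ j, M < x * r ^ j :=
    ⟨J, h2.trans_le (by rw [mul_comm]; exact mul_le_mul_of_nonneg_left hJ hx.le)⟩
  have hs := Nat.find_spec hex
  have hle : Nat.find hex ≤ J :=
    Nat.find_le (h2.trans_le (by rw [mul_comm]; exact mul_le_mul_of_nonneg_left hJ hx.le))
  have h0 : Nat.find hex ≠ 0 := fun h => by rw [h, pow_zero, mul_one] at hs; linarith
  obtain ⟨i, hi⟩ := Nat.exists_eq_succ_of_ne_zero h0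
  refine ⟨i, by omega, not_lt.1 (Nat.find_min hex (by omega)), ?_⟩
  rw [hi, pow_succ] at hs
  linarith

/-- the lengths `2^p 10^q` are dense in the multiplicative sense -/
theorem exists_length_near {δ : ℝ} (hδ : 0 < δ) :
    ∀ᶠ N : ℕ in atTop, ∃ L : ℕ, IsLength L ∧ L ≤ N ∧ (N : ℝ) ≤ Real.exp δ * L := by
  obtain ⟨p, q, hp, hq, hsmall, hne⟩ := exists_near_one hδ
  have hpow : ∀ (a b : ℕ), IsLength (2 ^ (a + b) * 5 ^ b) := fun a b => by
    rw [pow_add, mul_assoc, ← mul_pow]; exact isLength_two_pow_ten_pow a b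
  have hlen : ∀ a b : ℕ, b ≤ a → IsLength (2 ^ a * 5 ^ b) := fun a b h => by
    have := hpow (a - b) b; rwa [Nat.sub_add_cancel h] at this
  set D := (q : ℝ) * Real.log 5 - p * Real.log 2 with hD
  have hexp : Real.exp D = (5 : ℝ) ^ q / 2 ^ p := by
    rw [hD, Real.exp_sub, Real.exp_nat_mul, Real.exp_nat_mul, Real.exp_log (by norm_num),
      Real.exp_log (by norm_num)]
  rcases lt_trichotomy D 0 with hneg | h0 | hpos
  · -- `2^p / 5^q > 1`: start from `10^B`
    have hr : (1 : ℝ) < 2 ^ p / 5 ^ q := by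
      rw [one_lt_div (by positivity), ← div_lt_one (by positivity), ← hexp]
      exact Real.exp_lt_one_iff.2 hneg
    obtain ⟨J, hJ⟩ := pow_unbounded_of_one_lt (10 : ℝ) hr
    refine eventually_atTop.2 ⟨10 ^ (J * q + J), fun N hN => ?_⟩
    have hB : J * q + J ≤ Nat.log 10 N := Nat.le_log_of_pow_le (by norm_num) hN
    set B := Nat.log 10 N with hB'
    have hN1 : (10 : ℝ) ^ B ≤ N := by
      exact_mod_cast Nat.pow_log_le_self 10
        (Nat.pos_iff_ne_zero.1 (lt_of_lt_of_le (pow_pos (by norm_num) _) hN))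
    have hN2 : (N : ℝ) < 10 * (10 : ℝ) ^ B := by
      rw [← pow_succ']; exact_mod_cast Nat.lt_pow_succ_log_self (by norm_num) N
    obtain ⟨j, hj, hle, hlt⟩ := exists_geometric hr (by positivity) J hJ.le hN1 hN2
    have hjq : j * q ≤ B := le_trans (Nat.mul_le_mul_right q hj.le) (by omega)
    have hval : ((2 ^ (B + j * p) * 5 ^ (B - j * q) : ℕ) : ℝ) =
        (10 : ℝ) ^ B * ((2 : ℝ) ^ p / 5 ^ q) ^ j := by
      have e5 : (5 : ℝ) ^ B = 5 ^ (B - j * q) * 5 ^ (j * q) := by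
        rw [← pow_add, Nat.sub_add_cancel hjq]
      push_cast
      rw [div_pow, ← pow_mul, ← pow_mul, show (10 : ℝ) = 2 * 5 by norm_num, mul_pow, e5, pow_add,
        mul_comm p j, mul_comm q j]
      field_simp
    refine ⟨_, hlen (B + j * p) (B - j * q) (by omega), ?_, ?_⟩
    · have := hval.trans_le hle
      exact_mod_cast this
    · rw [hval]
      refine hlt.le.trans (mul_le_mul_of_nonneg_right ?_ (by positivity))
      rw [show (2 : ℝ) ^ p / 5 ^ q = Real.exp (-D) by rw [Real.exp_neg, hexp, inv_div]]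
      exact Real.exp_le_exp.2 (by linarith [(abs_lt.1 hsmall).1])
  · have h1 : (5 : ℝ) ^ q / 2 ^ p = 1 := by rw [← hexp, h0, Real.exp_zero]
    have h2 : (5 : ℝ) ^ q = 2 ^ p := (div_eq_one_iff_eq (pow_ne_zero p two_ne_zero)).1 h1
    exact absurd (by exact_mod_cast h2) hne
  · -- `5^q / 2^p > 1`: start from `2^A`
    have hr : (1 : ℝ) < 5 ^ q / 2 ^ p := by rw [← hexp]; exact Real.one_lt_exp_iff.2 hpos
    obtain ⟨J, hJ⟩ := pow_unbounded_of_one_lt (2 : ℝ) hr
    refine eventually_atTop.2 ⟨2 ^ (J * p + J * q), fun N hN => ?_⟩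
    have hA : J * p + J * q ≤ Nat.log 2 N := Nat.le_log_of_pow_le (by norm_num) hN
    set A := Nat.log 2 N with hA'
    have hN1 : (2 : ℝ) ^ A ≤ N := by
      exact_mod_cast Nat.pow_log_le_self 2
        (Nat.pos_iff_ne_zero.1 (lt_of_lt_of_le (pow_pos (by norm_num) _) hN))
    have hN2 : (N : ℝ) < 2 * (2 : ℝ) ^ A := by
      rw [← pow_succ']; exact_mod_cast Nat.lt_pow_succ_log_self (by norm_num) N
    obtain ⟨j, hj, hle, hlt⟩ := exists_geometric hr (by positivity) J hJ.le hN1 hN2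
    have hjp : j * p ≤ J * p := Nat.mul_le_mul_right p hj.le
    have hjq : j * q ≤ J * q := Nat.mul_le_mul_right q hj.le
    have hval : ((2 ^ (A - j * p) * 5 ^ (j * q) : ℕ) : ℝ) =
        (2 : ℝ) ^ A * ((5 : ℝ) ^ q / 2 ^ p) ^ j := by
      have e2 : (2 : ℝ) ^ A = 2 ^ (A - j * p) * 2 ^ (j * p) := by
        rw [← pow_add, Nat.sub_add_cancel (by omega)]
      push_cast
      rw [div_pow, ← pow_mul, ← pow_mul, e2, mul_comm p j, mul_comm q j]
      field_simp
    refine ⟨_, hlen (A - j * p) (j * q) (by omega), ?_, ?_⟩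
    · have := hval.trans_le hle
      exact_mod_cast this
    · rw [hval]
      refine hlt.le.trans (mul_le_mul_of_nonneg_right ?_ (by positivity))
      rw [← hexp]
      exact Real.exp_le_exp.2 (by linarith [(abs_lt.1 hsmall).2])

/-- **every large length has maximum at most `(√2 + ε) √N`** -/
theorem hasBound_sqrt_two {ε : ℝ} (hε : 0 < ε) :
    ∀ᶠ N : ℕ in atTop, HasBound N ((√2 + ε) * √N) := by
  have hδ : 0 < (ε / 4) ^ 2 := by positivity
  filter_upwards [exists_length_near hδ] with N hN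
  obtain ⟨L, hL, hLN, hN'⟩ := hN
  have h := hL.hasBound.append (hasBound_four (N - L))
  rw [Nat.add_sub_cancel' hLN] at h
  obtain ⟨c, hc, hb⟩ := h
  refine ⟨c, hc, fun z hz => (hb z hz).trans ?_⟩
  rw [add_mul]
  refine add_le_add (mul_le_mul_of_nonneg_left (Real.sqrt_le_sqrt (by exact_mod_cast hLN))
    (Real.sqrt_nonneg _)) ?_
  have h1 : ((N - L : ℕ) : ℝ) ≤ (ε / 4) ^ 2 * N := by
    rw [Nat.cast_sub hLN]
    have he := Real.add_one_le_exp (-(ε / 4) ^ 2)
    have hm : Real.exp (-(ε / 4) ^ 2) * N ≤ L := by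
      rw [Real.exp_neg, inv_mul_le_iff₀ (Real.exp_pos _)]; exact hN'
    nlinarith [(Nat.cast_nonneg N : (0 : ℝ) ≤ N)]
  calc 4 * √((N - L : ℕ) : ℝ) ≤ 4 * √((ε / 4) ^ 2 * N) := by gcongr
    _ = ε * √N := by
      rw [Real.sqrt_mul (sq_nonneg _), Real.sqrt_sq (by positivity)]
      ring

end Vale.Agent.P110.Golay
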