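import Mathlib

/-!
P110: Golay complementary pairs: seeds of lengths 2 and 10 and Turyn's product.
-/

namespace Vale.Agent.P110.Golay

open Finset ComplexConjugate

/-- a sign sequence -/
def IsSign (h : ℕ → ℤ) : Prop := ∀ k, h k = 1 ∨ h k = -1

/-- the polynomial of the first `n` coefficients -/
def poly (h : ℕ → ℤ) (n : ℕ) (z : ℂ) : ℂ := ∑ k ∈ range n, (h k : ℂ) * z ^ k

/-- there is a complementary pair of sign sequences of length `n` -/
def IsLength (n : ℕ) : Prop :=
  ∃ a b : ℕ → ℤ, IsSign a ∧ IsSign b ∧ ∀ z : ℂ, ‖z‖ = 1 →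
    ‖poly a n z‖ ^ 2 + ‖poly b n z‖ ^ 2 = 2 * n

theorem norm_sq_cast (x : ℂ) : ((‖x‖ ^ 2 : ℝ) : ℂ) = x * conj x := by
  rw [Complex.mul_conj, Complex.sq_norm]

theorem isLength_two : IsLength 2 := by
  refine ⟨fun _ => 1, fun k => if k = 1 then -1 else 1, fun _ => Or.inl rfl,
    fun k => (by by_cases h : k = 1 <;> simp [h]), fun z hz => ?_⟩
  have hc : z * conj z = 1 := by rw [← norm_sq_cast, hz]; simp
  apply Complex.ofReal_injective
  rw [Complex.ofReal_add, norm_sq_cast, norm_sq_cast]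
  simp [poly, sum_range_succ]
  linear_combination 2 * hc

/-- first sequence of the pair of length 10 -/
def ten₁ (k : ℕ) : ℤ := [1, 1, -1, 1, -1, 1, -1, -1, 1, 1].getD k 1

/-- second sequence of the pair of length 10 -/
def ten₂ (k : ℕ) : ℤ := [1, 1, -1, 1, 1, 1, 1, 1, -1, -1].getD k 1

theorem isSign_getD (l : List ℤ) (hl : ∀ x ∈ l, x = 1 ∨ x = -1) :
    IsSign (fun k => l.getD k 1) := by
  intro k
  show l.getD k 1 = 1 ∨ l.getD k 1 = -1
  rcases lt_or_ge k l.length with h | h
  · rw [List.getD_eq_getElem _ _ h]; exact hl _ (List.getElem_mem h)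
  · exact Or.inl (List.getD_eq_default _ _ h)

theorem isLength_ten : IsLength 10 := by
  refine ⟨ten₁, ten₂, isSign_getD _ (by decide), isSign_getD _ (by decide), fun z hz => ?_⟩
  have hz0 : z ≠ 0 := by rintro rfl; simp at hz
  have hc : conj z = z⁻¹ := (Complex.inv_eq_conj hz).symm
  apply Complex.ofReal_injective
  rw [Complex.ofReal_add, norm_sq_cast, norm_sq_cast]
  simp [poly, sum_range_succ, ten₁, ten₂, hc]
  field_simp
  ring

/-- the interleaving of `p, q` along the pattern of `c, d` -/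
def weave (m : ℕ) (c d p q : ℕ → ℤ) (k : ℕ) : ℤ :=
  if c (k % m) = d (k % m) then p (k / m) * c (k % m) else q (k / m) * c (k % m)

theorem isSign_weave (m : ℕ) {c p q : ℕ → ℤ} (d : ℕ → ℤ) (hc : IsSign c) (hp : IsSign p)
    (hq : IsSign q) : IsSign (weave m c d p q) := by
  intro k
  unfold weave
  by_cases h : c (k % m) = d (k % m)
  · rw [if_pos h]
    rcases hp (k / m) with h1 | h1 <;> rcases hc (k % m) with h2 | h2 <;> simp [h1, h2]
  · rw [if_neg h]
    rcases hq (k / m) with h1 | h1 <;> rcases hc (k % m) with h2 | h2 <;> simp [h1, h2]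

/-- the part of `c` where it agrees with `d` -/
noncomputable def same (c d : ℕ → ℤ) (m : ℕ) (z : ℂ) : ℂ :=
  ∑ j ∈ range m, if c j = d j then (c j : ℂ) * z ^ j else 0

/-- the part of `c` where it differs from `d` -/
noncomputable def diffPart (c d : ℕ → ℤ) (m : ℕ) (z : ℂ) : ℂ :=
  ∑ j ∈ range m, if c j = d j then 0 else (c j : ℂ) * z ^ j

theorem sum_range_mul' (f : ℕ → ℂ) (n m : ℕ) :
    ∑ k ∈ range (n * m), f k = ∑ i ∈ range n, ∑ j ∈ range m, f (i * m + j) := by
  induction n with
  | zero => simp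
  | succ n ih => rw [Nat.succ_mul, sum_range_add, ih, sum_range_succ]

theorem poly_weave {m : ℕ} (hm : 0 < m) (c d p q : ℕ → ℤ) (n : ℕ) (z : ℂ) :
    poly (weave m c d p q) (n * m) z =
      poly p n (z ^ m) * same c d m z + poly q n (z ^ m) * diffPart c d m z := by
  rw [poly, sum_range_mul', poly, poly, sum_mul, sum_mul, ← sum_add_distrib]
  refine sum_congr rfl fun i _ => ?_
  rw [same, diffPart, mul_sum, mul_sum, ← sum_add_distrib]
  refine sum_congr rfl fun j hj => ?_
  have hj' := mem_range.1 hj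
  have e1 : (i * m + j) % m = j := by
    rw [Nat.mul_add_mod', Nat.mod_eq_of_lt hj']
  have e2 : (i * m + j) / m = i := by
    rw [Nat.add_comm, Nat.add_mul_div_right _ _ hm, Nat.div_eq_of_lt hj', Nat.zero_add]
  simp only [weave, e1, e2]
  by_cases h : c j = d j
  · rw [if_pos h, if_pos h, if_pos h, Int.cast_mul, pow_add, pow_mul', mul_zero, add_zero]
    ring
  · rw [if_neg h, if_neg h, if_neg h, Int.cast_mul, pow_add, pow_mul', mul_zero, zero_add]
    ring

theorem poly_reverse (p : ℕ → ℤ) (n : ℕ) {w : ℂ} (hw : ‖w‖ = 1) :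
    poly (fun i => p (n - 1 - i)) n w = w ^ (n - 1) * conj (poly p n w) := by
  rw [poly, poly, map_sum, mul_sum,
    ← sum_range_reflect (fun i => w ^ (n - 1) * conj ((p i : ℂ) * w ^ i)) n]
  refine sum_congr rfl fun i hi => ?_
  have hi' : i + (n - 1 - i) = n - 1 := by simp at hi; omega
  have hwc : w * conj w = 1 := by rw [← norm_sq_cast, hw]; simp
  rw [map_mul, map_intCast, map_pow]
  calc (p (n - 1 - i) : ℂ) * w ^ i
      = (p (n - 1 - i) : ℂ) * w ^ i * (w * conj w) ^ (n - 1 - i) := by rw [hwc, one_pow, mul_one]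
    _ = w ^ (i + (n - 1 - i)) * ((p (n - 1 - i) : ℂ) * conj w ^ (n - 1 - i)) := by
        rw [pow_add, mul_pow]; ring
    _ = _ := by rw [hi']

/-- the algebra behind Turyn's product -/
theorem turyn_identity (A B X Y u : ℂ) (n m : ℝ) (hu : ‖u‖ = 1)
    (hab : ‖A‖ ^ 2 + ‖B‖ ^ 2 = 2 * n) (hcd : ‖X + Y‖ ^ 2 + ‖X - Y‖ ^ 2 = 2 * m) :
    ‖A * X + B * Y‖ ^ 2 + ‖u * conj B * X + -(u * conj A) * Y‖ ^ 2 = 2 * (n * m) := by
  apply Complex.ofReal_injective
  have h1 := congrArg (fun t : ℝ => (t : ℂ)) hab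
  have h2 := congrArg (fun t : ℝ => (t : ℂ)) hcd
  simp only [Complex.ofReal_add, Complex.ofReal_mul, Complex.ofReal_ofNat, norm_sq_cast, map_add,
    map_sub] at h1 h2
  have hu' : u * conj u = 1 := by rw [← norm_sq_cast, hu]; simp
  simp only [Complex.ofReal_add, Complex.ofReal_mul, Complex.ofReal_ofNat, norm_sq_cast, map_add,
    map_neg, map_mul, Complex.conj_conj]
  linear_combination (X * conj X + Y * conj Y) * h1 + (n : ℂ) * h2 +
    (conj B * X - conj A * Y) * (B * conj X - A * conj Y) * hu'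

/-- Turyn's product -/
theorem IsLength.mul {n m : ℕ} (hn : IsLength n) (hm : IsLength m) : IsLength (n * m) := by
  obtain ⟨a, b, ha, hb, hab⟩ := hn
  obtain ⟨c, d, hc, hd, hcd⟩ := hm
  refine ⟨weave m c d a b, weave m c d (fun i => b (n - 1 - i)) (fun i => -a (n - 1 - i)),
    isSign_weave m d hc ha hb, isSign_weave m d hc (fun k => hb _)
      (fun k => by rcases ha (n - 1 - k) with h | h <;> simp [h]), fun z hz => ?_⟩
  rcases Nat.eq_zero_or_pos m with rfl | hm0
  · simp [poly]
  have hw : ‖z ^ m‖ = 1 := by rw [norm_pow, hz, one_pow]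
  have e1 : poly c m z = same c d m z + diffPart c d m z := by
    rw [same, diffPart, poly, ← sum_add_distrib]
    exact sum_congr rfl fun j _ => by by_cases h : c j = d j <;> simp [h]
  have e2 : poly d m z = same c d m z - diffPart c d m z := by
    rw [same, diffPart, poly, ← sum_sub_distrib]
    refine sum_congr rfl fun j _ => ?_
    by_cases h : c j = d j
    · simp [h]
    · have : d j = -c j := by
        rcases hc j with h1 | h1 <;> rcases hd j with h2 | h2 <;> simp_all
      rw [if_neg h, if_neg h, this]; push_cast; ring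
  have hneg : poly (fun i => -a (n - 1 - i)) n (z ^ m) =
      -((z ^ m) ^ (n - 1) * conj (poly a n (z ^ m))) := by
    rw [← poly_reverse a n hw]; simp [poly, neg_mul]
  rw [poly_weave hm0, poly_weave hm0, poly_reverse b n hw, hneg, Nat.cast_mul]
  exact turyn_identity _ _ _ _ _ n m (by rw [norm_pow, hw, one_pow]) (hab _ hw)
    (by rw [← e1, ← e2]; exact hcd z hz)

theorem isLength_two_pow_ten_pow (p q : ℕ) : IsLength (2 ^ p * 10 ^ q) := by
  have h1 : IsLength 1 := by
    refine ⟨fun _ => 1, fun _ => 1, fun _ => Or.inl rfl, fun _ => Or.inl rfl, fun z _ => ?_⟩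
    simp [poly]
    norm_num
  have hp : IsLength (2 ^ p) := by
    induction p with
    | zero => simpa using h1
    | succ p ih => rw [pow_succ]; exact ih.mul isLength_two
  induction q with
  | zero => simpa using hp
  | succ q ih => rw [pow_succ, ← mul_assoc]; exact ih.mul isLength_ten

end Vale.Agent.P110.Golay
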